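import Vale.Agent.P268.T.K372.Scales

/-!
# P268, topological half, block B3: the scales, nested eventually form
-/

set_option linter.unusedSectionVars false

namespace Vale.Agent.P268.T

open Set Filter Topology K372

/-- Small positive numbers. -/
theorem ev_small {b : ℝ} (hb : 0 < b) : ∀ᶠ x in 𝓝[>] (0 : ℝ), 0 < x ∧ x ≤ b := by
  filter_upwards [Ioc_mem_nhdsGT hb] with x hx using ⟨hx.1, hx.2⟩

/-- The scales exist, in the nested order `ε, d, d', θ, ε₁` (and then `κ, M, s₀`). -/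
theorem eventually_scalesB3 {ι : Type} [Fintype ι] [Nonempty ι] {σ : Type} [Finite σ]
    {K : σ → ι → ℕ} {G : (ι → ℕ) → ℝ} (hG : StrictMono G)
    (hGne : ∀ a b, a ≠ b → G (K a) ≠ G (K b)) (hG0 : ∀ L, 0 ≤ G L)
    (hG1 : ∀ a b, a ≠ b → 1 ≤ |G (K a) - G (K b)|) {C : ℝ}
    (hC : 1 ≤ C) {δ : ℝ} (hδ0 : 0 < δ) (hδ : Fintype.card ι * δ ^ 2 < 1) :
    ∀ᶠ ε in 𝓝[>] (0 : ℝ), ∀ᶠ d in 𝓝[>] (0 : ℝ), ∀ᶠ d' in 𝓝[>] (0 : ℝ), ∀ᶠ θ in 𝓝[>] (0 : ℝ),
    ∀ᶠ ε₁ in 𝓝[>] (0 : ℝ), ∃ κ M s₀, ScalesB3 K C G δ ε θ d d' κ ε₁ M s₀ := by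
  cases nonempty_fintype σ
  have hC0 : 0 < C := by linarith
  set S : ℝ := ∑ a, G (K a) with hS
  have hS0 : 0 ≤ S := Finset.sum_nonneg fun a _ => hG0 _
  have hSle : ∀ a, G (K a) ≤ S := fun a =>
    Finset.single_le_sum (f := fun a => G (K a)) (fun a _ => hG0 _) (Finset.mem_univ a)
  have hsN : 0 < Real.sqrt (Fintype.card ι) :=
    Real.sqrt_pos.mpr (by exact_mod_cast Fintype.card_pos)
  obtain ⟨θ₀, hθ₀, hθ₀'⟩ := exists_theta K G (4 * Fintype.card ι)
  filter_upwards [ev_small (lt_min (div_pos hδ0 hC0) (div_pos one_pos hC0))] with ε ⟨hε, hεm⟩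
  have hεδ : C * ε ≤ δ := by
    have : ε ≤ δ / C := hεm.trans (min_le_left _ _)
    rw [le_div_iff₀ hC0] at this; linarith
  have hε1 : C * ε ≤ 1 := by
    have : ε ≤ 1 / C := hεm.trans (min_le_right _ _)
    rw [le_div_iff₀ hC0] at this; linarith
  filter_upwards [ev_small (lt_min one_pos (div_pos hε hC0))] with d ⟨hd, hdm⟩
  have hdε : C * d ≤ ε := by
    have : d ≤ ε / C := hdm.trans (min_le_right _ _)
    rw [le_div_iff₀ hC0] at this; linarith
  filter_upwards [ev_small (div_pos hd (mul_pos two_pos hsN))] with d' ⟨hd', hd'm⟩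
  have hd'd : Real.sqrt (Fintype.card ι) * d' < d := by
    rw [le_div_iff₀ (mul_pos two_pos hsN)] at hd'm
    nlinarith
  filter_upwards [ev_small (lt_min hθ₀ (show 0 < ε / (C * (S + 1)) by positivity))] with θ
    ⟨hθ, hθm⟩
  have hθS : C * θ * (S + 1) ≤ ε := by
    have : θ ≤ ε / (C * (S + 1)) := hθm.trans (min_le_right _ _)
    rw [le_div_iff₀ (by positivity)] at this; linarith
  have hθε : ∀ a, C * θ * G (K a) ≤ ε := fun a => by
    refine le_trans (mul_le_mul_of_nonneg_left ?_ (by positivity)) hθS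
    linarith [hSle a]
  have hθε' : C * θ ≤ ε := by
    refine le_trans ?_ hθS
    have : 0 ≤ C * θ * S := by positivity
    linarith
  have hsmall : ∀ a b, 4 * Fintype.card ι * θ * |G (K a) - G (K b)| ≤ 1 :=
    hθ₀' θ hθ.le (hθm.trans (min_le_left _ _))
  obtain ⟨κ', hκ', hsep⟩ := exists_sepV' (K := K) (G := G) (δ := δ) (d := d') (θ := θ) hδ0.le hδ
    hd'.le hθ hG hGne hsmall (f := fun u => mxV u - d * oscV u)
    (continuous_mxV.sub (continuous_const.mul (continuous_mxV.sub continuous_mnV)))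
    (fun k hk u => by
      rw [mxV_smul hk, oscV_smul hk]; ring)
    (fun u hu hf => exists_lt_of_osc_le hd (hdm.trans (min_le_left _ _)) hd'.le hd'd hu
      (by linarith))
  set κ : ℝ := min κ' 1 with hκ
  have hκpos : 0 < κ := lt_min hκ' one_pos
  have hsepκ : ∀ a b, a ≠ b → ∀ u : EuclideanSpace ℝ ι, d * oscV u - κ * ‖u‖ ≤ mxV u →
      κ * ‖u‖ ≤ ‖cV δ d' θ G (K a) u - cV δ d' θ G (K b) u‖ := by
    intro a b hab u hu
    have h1 : κ * ‖u‖ ≤ κ' * ‖u‖ := mul_le_mul_of_nonneg_right (min_le_left _ _) (norm_nonneg _)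
    exact h1.trans (hsep a b hab u (by linarith))
  filter_upwards [ev_small (lt_min (div_pos hκpos hC0) (lt_min (div_pos hε hC0)
    (div_pos hd hC0)))] with ε₁ ⟨hε₁, hε₁m⟩
  have hε₁κ : C * ε₁ ≤ κ := by
    have : ε₁ ≤ κ / C := hε₁m.trans (min_le_left _ _)
    rw [le_div_iff₀ hC0] at this; linarith
  have hε₁ε : C * ε₁ ≤ ε := by
    have : ε₁ ≤ ε / C := hε₁m.trans ((min_le_right _ _).trans (min_le_left _ _))
    rw [le_div_iff₀ hC0] at this; linarith
  have hε₁d : C * ε₁ ≤ d := by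
    have : ε₁ ≤ d / C := hε₁m.trans ((min_le_right _ _).trans (min_le_right _ _))
    rw [le_div_iff₀ hC0] at this; linarith
  refine ⟨κ, max C (C * ε / κ), max C (C * θ * S / ε₁),
    ⟨hC, hG, hG0, hGne, hG1, hδ0, hδ, hε, hεδ, hε1, hθ, hsmall, hθε, hθε', hd, hdε,
      hdm.trans (min_le_left _ _), hd'.le, hd'd, hκpos, min_le_right _ _, hsepκ, hε₁, hε₁κ, hε₁ε,
      hε₁d, le_max_left _ _, ?_, le_max_left _ _, fun a => ?_⟩⟩
  · have h1 : C * ε / κ ≤ max C (C * ε / κ) := le_max_right _ _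
    rw [div_le_iff₀ hκpos] at h1
    linarith
  · have h1 : C * θ * S / ε₁ ≤ max C (C * θ * S / ε₁) := le_max_right _ _
    rw [div_le_iff₀ hε₁] at h1
    have h2 : C * θ * G (K a) ≤ C * θ * S :=
      mul_le_mul_of_nonneg_left (hSle a) (by positivity)
    linarith

end Vale.Agent.P268.T
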