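import Vale.Agent.P268.T.S708.KRe
import Vale.Agent.P268.T.H719.EvScales

/-!
# P268, topological half, block B3: zero sets of the functions `kF`

The zero set of `kF K δ ρ M s ε a c` does not depend on `M > 0`; for `c = φ`, `a = 1`, `ε = ρ` it
is the zero set of the fat function; for `a = 0` it is the zero set of the K-form.
-/

set_option linter.unusedSectionVars false

namespace Vale.Agent.P268.T

open Set Filter Topology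
open K372 (phiV nuV cV)
open scoped RealInnerProductSpace

theorem sup'_pos_iff {α : Type*} [Fintype α] [Nonempty α] (f : α → ℝ) :
    0 < Finset.univ.sup' Finset.univ_nonempty f ↔ ∃ k, 0 < f k := by
  rw [Finset.lt_sup'_iff]
  simp

theorem sup'_nonneg_iff {α : Type*} [Fintype α] [Nonempty α] (f : α → ℝ) :
    0 ≤ Finset.univ.sup' Finset.univ_nonempty f ↔ ∃ k, 0 ≤ f k := by
  rw [Finset.le_sup'_iff]
  simp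

variable {ι σ : Type} [Fintype ι] [Nonempty ι] [Fintype σ] [Nonempty σ]
  {K : σ → ι → ℕ} {δ ρ M s ε a : ℝ} {c : σ → EuclideanSpace ℝ ι → EuclideanSpace ℝ ι}
  {x : EuclideanSpace ℝ ι × EuclideanSpace ℝ ι}

theorem frV_zero_eq (M s : ℝ) (u : EuclideanSpace ℝ ι) :
    frV M s 0 u = M * (s * oscV u - mxV u) := by unfold frV; ring

theorem frV_pos_iff (hM : 0 < M) (u : EuclideanSpace ℝ ι) :
    0 < frV M s 0 u ↔ mxV u < s * oscV u := by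
  rw [frV_zero_eq, mul_pos_iff_of_pos_left hM, sub_pos]

theorem frV_nonneg_iff (hM : 0 < M) (u : EuclideanSpace ℝ ι) :
    0 ≤ frV M s 0 u ↔ mxV u ≤ s * oscV u := by
  rw [frV_zero_eq, mul_nonneg_iff_of_pos_left hM, sub_nonneg]

theorem kRe_pos_iff (hM : 0 < M) : 0 < kRe K ρ M s ε a c x ↔
    ((∃ k, ‖x.2 - a • phiV (K k) x.1‖ < ρ * ‖x.1‖) ∧ mxV x.1 < s * oscV x.1) ∨
      ∃ k, ‖x.2 - c k x.1‖ < ε * ‖x.1‖ := by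
  unfold kRe
  rw [lt_max_iff, lt_min_iff, sup'_pos_iff, sup'_pos_iff, frV_pos_iff hM]
  simp only [sub_pos]

theorem kRe_nonneg_iff (hM : 0 < M) : 0 ≤ kRe K ρ M s ε a c x ↔
    ((∃ k, ‖x.2 - a • phiV (K k) x.1‖ ≤ ρ * ‖x.1‖) ∧ mxV x.1 ≤ s * oscV x.1) ∨
      ∃ k, ‖x.2 - c k x.1‖ ≤ ε * ‖x.1‖ := by
  unfold kRe
  rw [le_max_iff, le_min_iff, sup'_nonneg_iff, sup'_nonneg_iff, frV_nonneg_iff hM]
  simp only [sub_nonneg]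

theorem real_eq_zero_iff (r : ℝ) : r = 0 ↔ ¬ 0 < r ∧ 0 ≤ r :=
  ⟨fun h => by rw [h]; simp, fun h => le_antisymm (not_lt.mp h.1) h.2⟩

theorem kRe_eq_zero_iff (hM : 0 < M) : kRe K ρ M s ε a c x = 0 ↔
    (¬ ((∃ k, ‖x.2 - a • phiV (K k) x.1‖ < ρ * ‖x.1‖) ∧ mxV x.1 < s * oscV x.1) ∧
      ∀ k, ¬ ‖x.2 - c k x.1‖ < ε * ‖x.1‖) ∧
    (((∃ k, ‖x.2 - a • phiV (K k) x.1‖ ≤ ρ * ‖x.1‖) ∧ mxV x.1 ≤ s * oscV x.1) ∨
      ∃ k, ‖x.2 - c k x.1‖ ≤ ε * ‖x.1‖) := by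
  rw [real_eq_zero_iff, kRe_pos_iff hM, kRe_nonneg_iff hM, not_or, not_exists]

theorem kF_eq_zero_iff : kF K δ ρ M s ε a c x = 0 ↔ kRe K ρ M s ε a c x = 0 ∧ bIm δ x = 0 := by
  unfold kF
  rw [Complex.ext_iff]
  rfl

/-- The zero set of `kF` does not depend on `M > 0`. -/
theorem kF_zero_M {M' : ℝ} (hM : 0 < M) (hM' : 0 < M') :
    kF K δ ρ M s ε a c x = 0 ↔ kF K δ ρ M' s ε a c x = 0 := by
  rw [kF_eq_zero_iff, kF_eq_zero_iff, kRe_eq_zero_iff hM, kRe_eq_zero_iff hM']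

theorem veq_kF_M {M' : ℝ} (hM : 0 < M) (hM' : 0 < M') :
    VEq (kF K δ ρ M s ε a c) (kF K δ ρ M' s ε a c) :=
  VEq.of_iff fun _ => kF_zero_M hM hM'

/-- At the beginning of the front move the front is invisible. -/
theorem kRe_start (hM : 0 < M) : kRe K ρ M s ρ 1 (fun k => phiV (K k)) x = 0 ↔
    (Finset.univ.sup' Finset.univ_nonempty fun k => ρ * ‖x.1‖ - ‖x.2 - phiV (K k) x.1‖) = 0 := by
  rw [kRe_eq_zero_iff hM, real_eq_zero_iff, sup'_pos_iff, sup'_nonneg_iff]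
  simp only [one_smul, sub_pos, sub_nonneg]
  constructor
  · rintro ⟨⟨-, h1⟩, h2⟩
    refine ⟨fun ⟨k, hk⟩ => h1 k hk, ?_⟩
    rcases h2 with h2 | h2
    · exact h2.1
    · exact h2
  · rintro ⟨h1, h2⟩
    exact ⟨⟨fun h => h1 h.1, fun k hk => h1 ⟨k, hk⟩⟩, Or.inr h2⟩

/-- For `a = 0` the fat part is the slab. -/
theorem kRe_end (hM : 0 < M) : kRe K ρ M s ε 0 c x = 0 ↔
    (¬ (‖x.2‖ < ρ * ‖x.1‖ ∧ mxV x.1 < s * oscV x.1) ∧ ∀ k, ¬ ‖x.2 - c k x.1‖ < ε * ‖x.1‖) ∧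
    ((‖x.2‖ ≤ ρ * ‖x.1‖ ∧ mxV x.1 ≤ s * oscV x.1) ∨ ∃ k, ‖x.2 - c k x.1‖ ≤ ε * ‖x.1‖) := by
  rw [kRe_eq_zero_iff hM]
  simp only [zero_smul, sub_zero, exists_const]

/-- **Zero set of the end of block B3**, if the imaginary part is the inner product with the
normal where it should be. -/
theorem kF_end (hM : 0 < M) {nu : EuclideanSpace ℝ ι → EuclideanSpace ℝ ι}
    (h0 : ‖x.2‖ ≤ ρ * ‖x.1‖ → mxV x.1 ≤ s * oscV x.1 → bIm δ x = ⟪x.2, nu x.1⟫)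
    (h1 : ∀ k, ‖x.2 - c k x.1‖ ≤ ε * ‖x.1‖ → bIm δ x = ⟪x.2 - c k x.1, nu x.1⟫) :
    kF K δ ρ M s ε 0 c x = 0 ↔
    ¬ (‖x.2‖ < ρ * ‖x.1‖ ∧ mxV x.1 < s * oscV x.1) ∧ (∀ k, ¬ ‖x.2 - c k x.1‖ < ε * ‖x.1‖) ∧
    ((‖x.2‖ ≤ ρ * ‖x.1‖ ∧ mxV x.1 ≤ s * oscV x.1 ∧ ⟪x.2, nu x.1⟫ = 0) ∨
      ∃ k, ‖x.2 - c k x.1‖ ≤ ε * ‖x.1‖ ∧ ⟪x.2 - c k x.1, nu x.1⟫ = 0) := by
  rw [kF_eq_zero_iff, kRe_end hM]
  constructor
  · rintro ⟨⟨⟨a1, a2⟩, a3⟩, a4⟩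
    refine ⟨a1, a2, ?_⟩
    rcases a3 with ⟨b1, b2⟩ | ⟨k, b1⟩
    · exact Or.inl ⟨b1, b2, by rw [← h0 b1 b2]; exact a4⟩
    · exact Or.inr ⟨k, b1, by rw [← h1 k b1]; exact a4⟩
  · rintro ⟨a1, a2, a3⟩
    rcases a3 with ⟨b1, b2, b3⟩ | ⟨k, b1, b2⟩
    · exact ⟨⟨⟨a1, a2⟩, Or.inl ⟨b1, b2⟩⟩, by rw [h0 b1 b2]; exact b3⟩
    · exact ⟨⟨⟨a1, a2⟩, Or.inr ⟨k, b1⟩⟩, by rw [h1 k b1]; exact b2⟩

end Vale.Agent.P268.T
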