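import Vale.Agent.P268.T.K372.BIm
import Vale.Agent.P268.T.K372.Scales
import Vale.Agent.P268.T.S708.Contr
import Vale.Agent.P268.T.H719.Glue

/-!
# P268, topological half, block B3, stage S2: the displacement of the thin sheets

The front `2 osc u - max u` is fixed; the thin sheets move from `φ_K` to `cV`.
-/

set_option linter.unusedSectionVars false

namespace Vale.Agent.P268.T

open Set Filter Topology
open K372 (phiV nuV cV etaV ScalesB3)
open scoped RealInnerProductSpace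

section general

variable {S V T : Type*} [NormedAddCommGroup S] [NormedSpace ℝ S] [NormedAddCommGroup V]
  [InnerProductSpace ℝ V] [TopologicalSpace T] {s : Set T} {t₀ : T}

/-- Locally Lipschitz centres: the increment along `a` is at most `L ‖a‖`. -/
theorem VInc.of_locLip {c : T → S → V} {u₀ : S} (h : LocLip s c t₀ u₀) :
    ∃ L : ℝ, 0 ≤ L ∧ ∀ a : S, VInc (L * ‖a‖) s c t₀ u₀ a 0 := by
  obtain ⟨L, U, hU, h⟩ := h
  refine ⟨|L|, abs_nonneg _, fun a => ⟨U, hU, h.mono fun t ht u hu τ hτ hu' => ?_⟩⟩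
  have h1 := ht _ hu' u hu
  rw [add_sub_cancel_left, norm_smul, Real.norm_eq_abs, abs_of_pos hτ] at h1
  rw [smul_zero, sub_zero]
  refine h1.trans ?_
  calc L * (τ * ‖a‖) ≤ |L| * (τ * ‖a‖) :=
        mul_le_mul_of_nonneg_right (le_abs_self L) (by positivity)
    _ = |L| * ‖a‖ * τ := by ring

/-- A sheet with locally Lipschitz centre grows along `(κ • a, -(v₀ - c))` for small `κ`. -/
theorem exists_piece_toward {c : T → S → V} {u₀ : S} {v₀ ν : V} {lam : ℝ} (hlam : 0 ≤ lam)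
    (hcc : BAt s c t₀ u₀) (hc : LocLip s c t₀ u₀) (hw0 : v₀ - c t₀ u₀ ≠ 0) (hν0 : ν ≠ 0)
    (hν : ⟪v₀ - c t₀ u₀, ν⟫ = 0) (a : S) :
    ∃ κ₀ : ℝ, 0 < κ₀ ∧ ∀ κ : ℝ, 0 ≤ κ → κ ≤ κ₀ → Piece s t₀ ((u₀, v₀) : S × V)
      (κ • a, -(v₀ - c t₀ u₀)) (0, ν) (fun t x => lam * ‖x.1‖ - ‖x.2 - c t x.1‖) := by
  obtain ⟨L, hL, hV⟩ := VInc.of_locLip hc
  have hn : 0 < ‖v₀ - c t₀ u₀‖ := norm_pos_iff.mpr hw0
  have hden : 0 < (lam + L) * ‖a‖ + 1 := by positivity
  refine ⟨‖v₀ - c t₀ u₀‖ / 4 / ((lam + L) * ‖a‖ + 1), by positivity, fun κ hκ0 hκ => ?_⟩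
  have h1 : κ * ((lam + L) * ‖a‖ + 1) ≤ ‖v₀ - c t₀ u₀‖ / 4 := by
    rwa [le_div_iff₀ hden] at hκ
  have hnorm : ‖κ • a‖ = κ * ‖a‖ := by rw [norm_smul, Real.norm_eq_abs, abs_of_nonneg hκ0]
  refine Piece.sheet (E := fun _ u => lam * ‖u‖) (c' := 0) (κE := -(lam * ‖κ • a‖))
    (κw := ‖v₀ - c t₀ u₀‖ / 2) (L := L * ‖κ • a‖) (loInc_norm hlam _ _) (hV _) hcc ?_ ?_ ?_ hc
    hw0 hν0 hν
  · rw [sub_zero]
    exact NormDec.toward hw0 (by linarith)
  · rw [hnorm]
    have : κ * ((lam + L) * ‖a‖ + 1) = lam * (κ * ‖a‖) + L * (κ * ‖a‖) + κ := by ring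
    linarith
  · exact ⟨lam, univ, univ_mem, Eventually.of_forall fun _ x _ y _ => by
      rw [← mul_sub, norm_mul, Real.norm_eq_abs, abs_of_nonneg hlam]
      exact mul_le_mul_of_nonneg_left (abs_norm_sub_norm_le x y) hlam⟩

end general

variable {ι σ : Type} [Fintype ι] [Nonempty ι] [Fintype σ] [Nonempty σ]

/-- The front function as a piece, along `(-κ 1, b)`. -/
theorem piece_front {T : Type*} [TopologicalSpace T] {s : Set T} {t₀ : T} {M q : ℝ} (hM : 0 < M)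
    (hq : 0 ≤ q) {u₀ : EuclideanSpace ℝ ι} {v₀ b ν : EuclideanSpace ℝ ι} {κ : ℝ} (hκ : 0 < κ) :
    Piece s t₀ ((u₀, v₀) : EuclideanSpace ℝ ι × EuclideanSpace ℝ ι)
      (κ • (-oneV ι), b) (0, ν) (fun _ x => frV M q 0 x.1) := by
  refine Piece.base (f := fun _ u => frV M q 0 u) (κ := M * κ) (by positivity) ?_ ?_
  · refine ⟨univ, univ_mem, Eventually.of_forall fun t u _ τ hτ _ => ?_⟩
    have e : u + τ • κ • (-oneV ι) = u - (τ * κ) • oneV ι := by
      rw [smul_smul, smul_neg]; abel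
    show M * κ * τ ≤ frV M q 0 (u + τ • κ • (-oneV ι)) - frV M q 0 u
    rw [e, frV_sub_one]
    linarith
  · refine ⟨M * (2 * q + 1) + 0, univ, univ_mem, Eventually.of_forall fun _ x _ y _ => ?_⟩
    rw [Real.norm_eq_abs]
    exact abs_frV_sub_le hM.le hq le_rfl x y

/-- Ahead of the front `2 osc - max` all coordinates are large. -/
theorem le_two_sqrt_mul {u : EuclideanSpace ℝ ι} (h : 2 * oscV u ≤ mxV u) (j : ι) :
    ‖u‖ ≤ 2 * Real.sqrt (Fintype.card ι) * u j := by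
  have h0 := oscV_nonneg u
  have h1 : mxV u ≤ 2 * mnV u := by
    have : oscV u = mxV u - mnV u := rfl
    rw [this] at h
    linarith
  have h2 : 0 ≤ mxV u := by linarith
  have h3 := mnV_le u j
  have h4 : ‖u‖ ≤ Real.sqrt (Fintype.card ι) * mxV u := by
    refine norm_le_sqrt_mul h2 fun i => ?_
    rw [abs_le]
    constructor
    · have := mnV_le u i; linarith
    · exact le_mxV u i
  have h5 : 0 ≤ Real.sqrt (Fintype.card ι) := Real.sqrt_nonneg _
  have h6 : Real.sqrt (Fintype.card ι) * mxV u ≤ Real.sqrt (Fintype.card ι) * (2 * u j) :=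
    mul_le_mul_of_nonneg_left (by linarith) h5
  linarith

/-- Different rays are separated where all coordinates are large. -/
theorem phiV_sep {K L : ι → ℕ} (h : K ≠ L) {u : EuclideanSpace ℝ ι} {m : ℝ} (hm : 0 ≤ m)
    (hu : ∀ j, m ≤ u j) : m ≤ ‖phiV K u - phiV L u‖ := by
  obtain ⟨j, hj⟩ := Function.ne_iff.mp h
  have h1 := K372.abs_apply_le (phiV K u - phiV L u) j
  have h2 : (phiV K u - phiV L u) j = ((K j : ℝ) - L j) * u j := by
    show K j * max (u j) 0 - L j * max (u j) 0 = _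
    rw [max_eq_left (hm.trans (hu j))]; ring
  have h3 : (1 : ℝ) ≤ |(K j : ℝ) - L j| := by
    have h5 : ((K j : ℤ) - L j) ≠ 0 := by
      rw [sub_ne_zero]; exact_mod_cast hj
    have h6 : 1 ≤ |(K j : ℤ) - L j| := Int.one_le_abs h5
    exact_mod_cast h6
  have h4 : 0 ≤ u j := hm.trans (hu j)
  rw [h2, abs_mul, abs_of_nonneg h4] at h1
  have h5 := mul_le_mul_of_nonneg_right h3 h4
  have h6 := hu j
  linarith

section stage

variable {K : σ → ι → ℕ} {C : ℝ} {G : (ι → ℕ) → ℝ} {δ ε θ d d' κ ε₁ M s₀ : ℝ}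

/-- The displacement is small against `ε`. -/
theorem ScalesB3.disp_le (h : ScalesB3 K C G δ ε θ d d' κ ε₁ M s₀) {B : ℝ} (hB : 0 < B)
    (hC : B * (Fintype.card ι * Fintype.card ι) ≤ C) {t : ℝ} (ht0 : 0 ≤ t) (ht1 : t ≤ 1) (k : σ)
    (u : EuclideanSpace ℝ ι) :
    B * ‖cV δ d' (t * θ) G (K k) u - phiV (K k) u‖ ≤ ε * ‖u‖ := by
  rw [K372.norm_cV_sub_phiV]
  have h1 := K372.norm_etaV_le h.hδ0.le h.hd'0 u
  have h2 := h.hG0 (K k)
  have h3 := h.hθ0
  have hn := norm_nonneg u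
  have hcard : (0 : ℝ) ≤ Fintype.card ι * Fintype.card ι := by positivity
  have h4 : |t * θ * G (K k)| = t * θ * G (K k) := abs_of_nonneg (by positivity)
  rw [h4]
  have h5 : t * θ * G (K k) ≤ θ * G (K k) := by
    have : t * (θ * G (K k)) ≤ 1 * (θ * G (K k)) :=
      mul_le_mul_of_nonneg_right ht1 (by positivity)
    linarith
  calc B * (t * θ * G (K k) * ‖etaV δ d' u‖)
      ≤ B * (θ * G (K k) * (Fintype.card ι * (Fintype.card ι * ‖u‖))) := by
        refine mul_le_mul_of_nonneg_left ?_ hB.le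
        exact mul_le_mul h5 h1 (norm_nonneg _) (by positivity)
    _ = B * (Fintype.card ι * Fintype.card ι) * θ * G (K k) * ‖u‖ := by ring
    _ ≤ C * θ * G (K k) * ‖u‖ := by gcongr
    _ ≤ ε * ‖u‖ := mul_le_mul_of_nonneg_right (h.hθε k) hn

/-- **Stage S2**. -/
theorem stage2 (h : ScalesB3 K C G δ ε θ d d' κ ε₁ M s₀)
    (hC : 16 * (Fintype.card ι * Fintype.card ι) ≤ C) (hC' : 32 * Real.sqrt (Fintype.card ι) ≤ C)
    (hK : Function.Injective K) :
    VEq (kF K δ (2 * ε) M 2 (2 * ε₁) 1 (fun k => phiV (K k)))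
      (kF K δ (2 * ε) M 2 (2 * ε₁) 1 (fun k => cV δ d' θ G (K k))) := by
  have hsN : 1 ≤ Real.sqrt (Fintype.card ι) := by
    rw [Real.one_le_sqrt]
    exact_mod_cast Fintype.card_pos
  have hC32 : 32 ≤ C := le_trans (by linarith) hC'
  have hε := h.hε0
  have hM0 : 0 < M := by linarith [h.hM]
  have hε₁ := h.hε₁0
  have hsm : 16 * ε₁ ≤ ε := by nlinarith [h.hε₁ε]
  have hεδ : 32 * ε ≤ δ := by nlinarith [h.hεδ]
  have hεN : 32 * Real.sqrt (Fintype.card ι) * ε ≤ 1 := by nlinarith [h.hε1]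
  -- the family
  set c : σ → ℝ → EuclideanSpace ℝ ι → EuclideanSpace ℝ ι :=
    fun k t u => cV δ d' (t * θ) G (K k) u with hc
  set φ : σ → ℝ → EuclideanSpace ℝ ι → EuclideanSpace ℝ ι :=
    fun k _ u => (1 : ℝ) • phiV (K k) u with hφ
  have cc : ∀ k, Continuous fun p : ℝ × EuclideanSpace ℝ ι => c k p.1 p.2 := fun k => by
    have h1 := K372.continuous_cV_param h.hδ0.le h.hd'0 G (K k)
    exact h1.comp (f := fun p : ℝ × EuclideanSpace ℝ ι => (p.1 * θ, p.2)) (by fun_prop)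
  have lc : ∀ k, ∀ t₀ ∈ Icc (0 : ℝ) 1, ∀ u₀, LocLip (Icc (0 : ℝ) 1) (c k) t₀ u₀ := by
    intro k t₀ _ u₀
    have hP : ∀ j, (K k j : ℝ) ≤ ∑ i, (K k i : ℝ) := fun j =>
      Finset.single_le_sum (f := fun i => (K k i : ℝ)) (fun _ _ => Nat.cast_nonneg _)
        (Finset.mem_univ j)
    have hP0 : 0 ≤ ∑ i, (K k i : ℝ) := Finset.sum_nonneg fun _ _ => Nat.cast_nonneg _
    refine ⟨(∑ i, (K k i : ℝ)) + |θ * G (K k)| * K372.lipEta ι δ d', univ, univ_mem, ?_⟩
    filter_upwards [self_mem_nhdsWithin] with t ht u _ v _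
    refine (K372.norm_cV_sub_le h.hδ0.le h.hd'0 (t * θ) G (K k) hP hP0 u v).trans ?_
    refine mul_le_mul_of_nonneg_right ?_ (norm_nonneg _)
    have h1 : |t * θ * G (K k)| ≤ |θ * G (K k)| := by
      rw [mul_assoc, abs_mul, abs_of_nonneg ht.1]
      exact mul_le_of_le_one_left (abs_nonneg _) ht.2
    have h2 := mul_le_mul_of_nonneg_right h1 (K372.lipEta_nonneg (ι := ι) h.hδ0.le h.hd'0)
    linarith
  have lφ : ∀ k, ∀ t₀ u₀, LocLip (Icc (0 : ℝ) 1) (φ k) t₀ u₀ := by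
    intro k t₀ u₀
    have := K372.locLip_cV (s := Icc (0 : ℝ) 1) (t₀ := t₀) (θ := 0) h.hδ0.le h.hd'0 G (K k) u₀
    have e : (fun (_ : ℝ) (u : EuclideanSpace ℝ ι) => cV δ d' 0 G (K k) u) = φ k := by
      funext t u
      simp [hφ, cV]
    rwa [e] at this
  have cφ : ∀ k, Continuous fun p : ℝ × EuclideanSpace ℝ ι => φ k p.1 p.2 := fun k => by
    have h1 : Continuous fun p : ℝ × EuclideanSpace ℝ ι => phiV (K k) p.2 :=
      (K372.continuous_phiV (K k)).comp continuous_snd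
    simpa [hφ] using h1
  have H : KSys (Icc (0 : ℝ) 1) φ c (fun _ u => 2 * ε * ‖u‖) (fun _ u => 2 * ε₁ * ‖u‖)
      (fun _ u => frV M 2 0 u) (nuV δ) (fun _ x => bIm δ x) :=
    { cφ := fun k => (cφ k).continuousOn
      cc := fun k => (cc k).continuousOn
      cE₁ := by fun_prop
      cE₂ := by fun_prop
      cf := by
        have h1 := (continuous_frV (ι := ι) M).comp
          (f := fun p : ℝ × EuclideanSpace ℝ ι => (((2 : ℝ), (0 : ℝ)), p.2)) (by fun_prop)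
        exact h1.continuousOn
      cβ := ((K372.continuous_bIm h.hδ0.le).comp continuous_snd).continuousOn
      hφ := fun k t _ r hr u => by
        simp only [hφ, one_smul]
        exact K372.phiV_smul (K k) hr u
      hc := fun k t _ r hr u => K372.cV_smul δ d' (t * θ) G (K k) hr u
      hE₁ := fun t _ r hr u => by rw [norm_smul, Real.norm_eq_abs, abs_of_nonneg hr]; ring
      hE₂ := fun t _ r hr u => by rw [norm_smul, Real.norm_eq_abs, abs_of_nonneg hr]; ring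
      hf := fun t _ r hr u => frV_smul M 2 0 hr u
      hβ := fun t _ r hr x => K372.bIm_smul hr x
      cν := fun u₀ hu => K372.continuousAt_nuV δ hu
      lν := fun t₀ _ u₀ hu => K372.locLip_nuV h.hδ0.le hu
      ν0 := fun u₀ hu => K372.nuV_ne_zero h.hδ0.le h.hδ hu
      zero := ?_ }
  · have h1 := H.rFam.veq_Icc
    have e0 : (fun x => (⟨kre φ c (fun _ u => 2 * ε * ‖u‖) (fun _ u => 2 * ε₁ * ‖u‖)
        (fun _ u => frV M 2 0 u) 0 x, bIm δ x⟩ : ℂ)) =
        kF K δ (2 * ε) M 2 (2 * ε₁) 1 (fun k => phiV (K k)) := by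
      funext x
      have : c = fun k t u => cV δ d' (t * θ) G (K k) u := hc
      simp only [kF, kRe, kre, shSup, shH, hφ, hc, zero_mul, cV, zero_smul, add_zero]
    have e1 : (fun x => (⟨kre φ c (fun _ u => 2 * ε * ‖u‖) (fun _ u => 2 * ε₁ * ‖u‖)
        (fun _ u => frV M 2 0 u) 1 x, bIm δ x⟩ : ℂ)) =
        kF K δ (2 * ε) M 2 (2 * ε₁) 1 (fun k => cV δ d' θ G (K k)) := by
      funext x
      simp only [kF, kRe, kre, shSup, shH, hφ, hc, one_mul]
    rw [e0, e1] at h1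
    exact h1
  -- the zeros
  rintro t₀ ht₀ ⟨u₀, v₀⟩ hu h0 hb
  simp only at hu hb ⊢
  have hn : 0 < ‖u₀‖ := norm_pos_iff.mpr hu
  have hν0 : nuV δ u₀ ≠ 0 := K372.nuV_ne_zero h.hδ0.le h.hδ hu
  have bφ : ∀ k, BAt (Icc (0 : ℝ) 1) (φ k) t₀ u₀ := fun k => (cφ k).continuousWithinAt
  have bc : ∀ k, BAt (Icc (0 : ℝ) 1) (c k) t₀ u₀ := fun k => (cc k).continuousWithinAt
  have hdisp : ∀ k, 16 * ‖c k t₀ u₀ - phiV (K k) u₀‖ ≤ ε * ‖u₀‖ := fun k =>
    ScalesB3.disp_le h (by norm_num) hC ht₀.1 ht₀.2 k u₀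
  -- nearness to a ray
  have near_of_thin : ∀ k, ‖v₀ - c k t₀ u₀‖ ≤ 2 * ε₁ * ‖u₀‖ →
      ‖v₀ - phiV (K k) u₀‖ ≤ ε * ‖u₀‖ / 2 := by
    intro k hk
    have e : v₀ - phiV (K k) u₀ = (v₀ - c k t₀ u₀) + (c k t₀ u₀ - phiV (K k) u₀) := by abel
    rw [e]
    have h1 := hdisp k
    have h2 : 2 * ε₁ * ‖u₀‖ ≤ ε * ‖u₀‖ / 8 := by nlinarith
    refine (norm_add_le _ _).trans ?_
    have : 0 < ε * ‖u₀‖ := by positivity
    linarith
  -- coplanarity
  have hbφ : ∀ k, ‖v₀ - phiV (K k) u₀‖ ≤ 2 * ε * ‖u₀‖ → ⟪v₀ - phiV (K k) u₀, nuV δ u₀⟫ = 0 := by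
    intro k hk
    rw [← K372.bIm_eq h.hδ0.le (hk.trans ?_)]
    · exact hb
    · exact mul_le_mul_of_nonneg_right (by linarith) hn.le
  have hbc : ∀ k, ‖v₀ - c k t₀ u₀‖ ≤ 2 * ε₁ * ‖u₀‖ → ⟪v₀ - c k t₀ u₀, nuV δ u₀⟫ = 0 := by
    intro k hk
    have h1 := near_of_thin k hk
    rw [← K372.bIm_eq_cV h.hδ0.le (h1.trans ?_)]
    · exact hb
    · have : ε * ‖u₀‖ / 2 = ε / 2 * ‖u₀‖ := by ring
      rw [this]
      exact mul_le_mul_of_nonneg_right (by linarith) hn.le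
  -- the real part
  set Fs := shSup (fun (_ : ℝ) u => 2 * ε * ‖u‖) φ t₀ (u₀, v₀) with hFs
  set Ts := shSup (fun (_ : ℝ) u => 2 * ε₁ * ‖u‖) c t₀ (u₀, v₀) with hTs
  set f₀ := frV M 2 0 u₀ with hf₀
  have hkre : max (min Fs f₀) Ts = 0 := h0
  have hFk : ∀ k, 2 * ε * ‖u₀‖ - ‖v₀ - phiV (K k) u₀‖ ≤ Fs := fun k => by
    have h1 : shH (fun (_ : ℝ) u => 2 * ε * ‖u‖) (φ k) t₀ (u₀, v₀) ≤ Fs :=
      le_shSup (fun (_ : ℝ) u => 2 * ε * ‖u‖) φ t₀ (u₀, v₀) k
    have h2 : shH (fun (_ : ℝ) u => 2 * ε * ‖u‖) (φ k) t₀ (u₀, v₀) =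
        2 * ε * ‖u₀‖ - ‖v₀ - phiV (K k) u₀‖ := by simp [shH, hφ]
    rwa [h2] at h1
  -- there is a ray nearby
  obtain ⟨k₀, hk₀⟩ : ∃ k₀, ‖v₀ - phiV (K k₀) u₀‖ ≤ 2 * ε * ‖u₀‖ := by
    rcases max_choice (min Fs f₀) Ts with hm | hm
    · rw [hm] at hkre
      have h1 : 0 ≤ Fs := by rw [← hkre]; exact min_le_left _ _
      obtain ⟨k, hk⟩ := exists_shSup (fun (_ : ℝ) u => 2 * ε * ‖u‖) φ t₀ (u₀, v₀)
      refine ⟨k, ?_⟩
      rw [← hFs] at hk
      simp only [shH, hφ, one_smul] at hk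
      linarith
    · rw [hm] at hkre
      obtain ⟨k, hk⟩ := exists_shSup (fun (_ : ℝ) u => 2 * ε₁ * ‖u‖) c t₀ (u₀, v₀)
      rw [← hTs, hkre] at hk
      simp only [shH] at hk
      refine ⟨k, (near_of_thin k (by linarith)).trans ?_⟩
      have : 0 < ε * ‖u₀‖ := by positivity
      linarith
  refine ⟨?_, fun _ u => phiV (K k₀) u, ?_, ?_, ?_⟩
  rotate_left
  · have := lφ k₀ t₀ u₀
    simpa [hφ] using this
  · have := bφ k₀
    simpa [hφ] using this
  · have h1 := K372.bIm_eventually (s := Icc (0 : ℝ) 1) (t₀ := t₀) (δ := δ) (d := d') (θ := 0)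
      h.hδ0.le (G := G) (K := K k₀) (x₀ := (u₀, v₀)) (lt_of_le_of_lt hk₀ ?_)
    · simpa [cV] using h1
    · exact mul_lt_mul_of_pos_right (by linarith) hn
  have hBE : ∀ lam : ℝ, BAt (Icc (0 : ℝ) 1) (fun (_ : ℝ) (u : EuclideanSpace ℝ ι) => lam * ‖u‖)
      t₀ u₀ := fun lam => by
    have h1 : Continuous fun p : ℝ × EuclideanSpace ℝ ι => lam * ‖p.2‖ := by fun_prop
    exact h1.continuousWithinAt
  have hBf : BAt (Icc (0 : ℝ) 1) (fun (_ : ℝ) (u : EuclideanSpace ℝ ι) => frV M 2 0 u) t₀ u₀ := by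
    have h1 := (continuous_frV (ι := ι) M).comp
        (f := fun p : ℝ × EuclideanSpace ℝ ι => (((2 : ℝ), (0 : ℝ)), p.2)) (by fun_prop)
    exact h1.continuousWithinAt
  -- the direction
  rcases lt_or_ge 0 f₀ with hf | hf
  · -- behind the front: only fat sheets
    obtain ⟨du, dv, -, -, hgr⟩ := exists_contraction (T := ℝ) K hε
      (show 8 * ε * Real.sqrt (Fintype.card ι) ≤ 1 by nlinarith) hu v₀
    refine ⟨(du, dv), piece_kre bφ bc (hBE _) (hBE _) hBf h0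
      (fun k _ hS hk => ?_) (fun hz _ => absurd hz hf.ne') (fun k hS hk => ?_)⟩
    · have hk' : ‖v₀ - phiV (K k) u₀‖ = 2 * ε * ‖u₀‖ := by
        simp only [shH, hφ, one_smul] at hk
        linarith
      have hw0 : v₀ - phiV (K k) u₀ ≠ 0 := by
        intro h1
        rw [h1, norm_zero] at hk'
        have : 0 < 2 * ε * ‖u₀‖ := by positivity
        linarith
      have hgr' := hgr (Icc (0 : ℝ) 1) t₀ k hk'
      refine ⟨?_, ?_, ?_⟩
      · obtain ⟨κ₁, hκ₁, U, hU, hg⟩ := hgr'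
        refine ⟨2 * κ₁, by positivity, U, hU, hg.mono fun t ht x hx τ hτ => ?_⟩
        have h1 := ht x hx τ hτ
        simp only [shH, hφ, one_smul]
        have e : τ * (2 * ε * ‖(x + τ • ((du, dv) : EuclideanSpace ℝ ι × EuclideanSpace ℝ ι)).1‖ -
            ‖(x + τ • ((du, dv) : EuclideanSpace ℝ ι × EuclideanSpace ℝ ι)).2 -
            phiV (K k) (x + τ • ((du, dv) : EuclideanSpace ℝ ι × EuclideanSpace ℝ ι)).1‖ -
            (2 * ε * ‖x.1‖ - ‖x.2 - phiV (K k) x.1‖)) =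
            2 * (τ * (ε * ‖(x + τ • ((du, dv) : EuclideanSpace ℝ ι × EuclideanSpace ℝ ι)).1‖ -
            ‖(x + τ • ((du, dv) : EuclideanSpace ℝ ι × EuclideanSpace ℝ ι)).2 -
            phiV (K k) (x + τ • ((du, dv) : EuclideanSpace ℝ ι × EuclideanSpace ℝ ι)).1‖ / 2 -
            (ε * ‖x.1‖ - ‖x.2 - phiV (K k) x.1‖ / 2))) := by ring
        rw [e]
        linarith
      · refine Flat.sheet1 (E := fun (_ : ℝ) u => 2 * ε * ‖u‖) (c := φ k) (bφ k) ?_ hν0 ?_
        · simpa [hφ] using hw0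
        · have := hbφ k hk'.le
          simpa [hφ] using this
      · refine (LocLip.sheet1 (E := fun (_ : ℝ) u => 2 * ε * ‖u‖) (c := φ k)
          (x₀ := (u₀, v₀)) ?_ (lφ k t₀ u₀)).dirLip _
        exact ⟨2 * ε, univ, univ_mem, Eventually.of_forall fun _ x _ y _ => by
          rw [← mul_sub, norm_mul, Real.norm_eq_abs, abs_of_nonneg (by positivity)]
          exact mul_le_mul_of_nonneg_left (abs_norm_sub_norm_le x y) (by positivity)⟩
    · -- a thin sheet cannot be active here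
      exfalso
      have hk' : ‖v₀ - c k t₀ u₀‖ ≤ 2 * ε₁ * ‖u₀‖ := by
        simp only [shH] at hk
        linarith
      have h1 := near_of_thin k hk'
      have h2 := hFk k
      have h3 : 0 < ε * ‖u₀‖ := by positivity
      have h4 : 0 < min Fs f₀ := lt_min (by linarith) hf
      have h5 := le_max_left (min Fs f₀) Ts
      rw [hkre] at h5
      linarith
  · -- at or ahead of the front: only one sheet
    have hmx : 2 * oscV u₀ ≤ mxV u₀ := by
      have h1 : M * (2 * oscV u₀ - mxV u₀) ≤ 0 := by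
        rw [hf₀, frV_zero_eq] at hf
        exact hf
      have h2 := nonpos_of_mul_nonpos_right h1 hM0
      linarith
    have hsep : ∀ k l, k ≠ l → 8 * ε * ‖u₀‖ ≤ ‖phiV (K k) u₀ - phiV (K l) u₀‖ := by
      intro k l hkl
      have h1 : ∀ j, 8 * ε * ‖u₀‖ ≤ u₀ j := by
        intro j
        have h2 := le_two_sqrt_mul hmx j
        have h3 : 0 < 2 * Real.sqrt (Fintype.card ι) := by linarith
        have h4 : 0 < 2 * Real.sqrt (Fintype.card ι) * u₀ j := lt_of_lt_of_le hn h2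
        have h5 : 0 < u₀ j := (mul_pos_iff_of_pos_left h3).mp h4
        calc 8 * ε * ‖u₀‖ ≤ 8 * ε * (2 * Real.sqrt (Fintype.card ι) * u₀ j) :=
              mul_le_mul_of_nonneg_left h2 (by positivity)
          _ = (16 * Real.sqrt (Fintype.card ι) * ε) * u₀ j := by ring
          _ ≤ 1 * u₀ j := mul_le_mul_of_nonneg_right (by nlinarith) h5.le
          _ = u₀ j := one_mul _
      exact phiV_sep (fun he => hkl (hK he)) (by positivity) h1
    have huniq : ∀ k l, ‖v₀ - phiV (K k) u₀‖ ≤ 2 * ε * ‖u₀‖ →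
        ‖v₀ - phiV (K l) u₀‖ ≤ 2 * ε * ‖u₀‖ → k = l := by
      intro k l hk hl
      by_contra hkl
      have h1 := hsep k l hkl
      have e : phiV (K k) u₀ - phiV (K l) u₀ = (v₀ - phiV (K l) u₀) - (v₀ - phiV (K k) u₀) := by
        abel
      rw [e] at h1
      have h2 := norm_sub_le (v₀ - phiV (K l) u₀) (v₀ - phiV (K k) u₀)
      have h3 : 0 < ε * ‖u₀‖ := by positivity
      linarith
    have hTle : Ts ≤ 0 := by
      have := le_max_right (min Fs f₀) Ts
      rwa [hkre] at this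
    rcases hTle.eq_or_lt with hT | hT
    · -- a thin sheet is active
      obtain ⟨k₁, hk₁⟩ := exists_shSup (fun (_ : ℝ) u => 2 * ε₁ * ‖u‖) c t₀ (u₀, v₀)
      rw [← hTs, hT] at hk₁
      have hw₁ : ‖v₀ - c k₁ t₀ u₀‖ = 2 * ε₁ * ‖u₀‖ := by
        simp only [shH] at hk₁
        linarith
      have hne : v₀ - c k₁ t₀ u₀ ≠ 0 := by
        intro h1
        rw [h1, norm_zero] at hw₁
        have : 0 < 2 * ε₁ * ‖u₀‖ := by positivity
        linarith
      obtain ⟨κ₀, hκ₀, hP⟩ := exists_piece_toward (s := Icc (0 : ℝ) 1) (t₀ := t₀) (c := c k₁)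
        (lam := 2 * ε₁) (by positivity) (bc k₁) (lc k₁ t₀ ht₀ u₀) hne hν0 (hbc k₁ hw₁.le)
        (-oneV ι)
      refine ⟨(κ₀ • (-oneV ι), -(v₀ - c k₁ t₀ u₀)), piece_kre bφ bc (hBE _)
        (hBE _) hBf h0 (fun k _ hS hk => ?_)
        (fun _ _ => piece_front hM0 (by norm_num) hκ₀) (fun k _ hk => ?_)⟩
      · -- the fat sheet is strictly positive here
        exfalso
        have h1 := near_of_thin k₁ hw₁.le
        have h2 := hFk k₁
        have h3 : 0 < ε * ‖u₀‖ := by positivity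
        rw [← hFs] at hS
        linarith
      · have hk' : ‖v₀ - c k t₀ u₀‖ ≤ 2 * ε₁ * ‖u₀‖ := by
          simp only [shH] at hk
          linarith
        have h3 : 0 < ε * ‖u₀‖ := by positivity
        have h4 := near_of_thin k hk'
        have h5 := near_of_thin k₁ hw₁.le
        have : k = k₁ := huniq k k₁ (by linarith) (by linarith)
        subst this
        exact hP κ₀ hκ₀.le le_rfl
    · -- no thin sheet is active: the front is active
      have hmin : min Fs f₀ = 0 := by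
        rcases max_choice (min Fs f₀) Ts with hm | hm
        · rw [← hm]; exact hkre
        · rw [hm] at hkre; linarith
      have hw₀ : v₀ - phiV (K k₀) u₀ ≠ 0 ∨ Fs ≠ 0 := by
        by_cases h1 : v₀ - phiV (K k₀) u₀ = 0
        · right
          have h2 := hFk k₀
          rw [h1, norm_zero] at h2
          have : 0 < 2 * ε * ‖u₀‖ := by positivity
          intro h3
          linarith
        · exact Or.inl h1
      by_cases hw : v₀ - phiV (K k₀) u₀ = 0
      · have hFs' : Fs ≠ 0 := hw₀.resolve_left (by simpa using hw)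
        refine ⟨((1 : ℝ) • (-oneV ι), 0), piece_kre bφ bc (hBE _)
          (hBE _) hBf h0 (fun k _ hS hk => absurd hS hFs')
          (fun _ _ => piece_front hM0 (by norm_num) one_pos)
          (fun k hS _ => absurd hS hT.ne)⟩
      · obtain ⟨κ₀, hκ₀, hP⟩ := exists_piece_toward (s := Icc (0 : ℝ) 1) (t₀ := t₀) (c := φ k₀)
          (lam := 2 * ε) (by positivity) (bφ k₀) (lφ k₀ t₀ u₀) (by simpa [hφ] using hw) hν0
          (by simpa [hφ] using hbφ k₀ hk₀) (-oneV ι)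
        refine ⟨(κ₀ • (-oneV ι), -(v₀ - φ k₀ t₀ u₀)), piece_kre bφ bc (hBE _)
          (hBE _) hBf h0 (fun k _ hS hk => ?_)
          (fun _ _ => piece_front hM0 (by norm_num) hκ₀) (fun k hS _ => absurd hS hT.ne)⟩
        have hk' : ‖v₀ - phiV (K k) u₀‖ ≤ 2 * ε * ‖u₀‖ := by
          simp only [shH, hφ, one_smul] at hk
          linarith
        have : k = k₀ := huniq k k₀ hk' hk₀
        subst this
        exact hP κ₀ hκ₀.le le_rfl

end stage

end Vale.Agent.P268.T
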