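import Vale.Agent.P268.T.SkelNF
import Vale.Agent.P268.T.S708.S1
import Vale.Agent.P268.T.H719.S2
import Vale.Agent.P268.T.H291.S3
import Vale.Agent.P268.T.K372.S4b
import Vale.Agent.P268.T.K373.P1

/-!
# P268, topological half: assembly of block B3

`b3_chain`: stages S1, S2, S3, S4.  `kFormB3 : KFormB3`, with stage P1 (`K373/P1.lean`).
-/

set_option linter.unusedSectionVars false

namespace Vale.Agent.P268.T

open Set Filter Topology
open K372 (phiV nuV cV etaV ScalesB3 C4)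
open scoped RealInnerProductSpace

section

variable {ι σ : Type} [Fintype ι] [Nonempty ι] [Fintype σ] [Nonempty σ]

theorem oscV_eq_osc (u : EuclideanSpace ℝ ι) : oscV u = B4.osc u.ofLp := by
  unfold oscV B4.osc
  have h1 : mxV u = Vale.Agent.P268.H288.mx u.ofLp := rfl
  have h2 : mnV u = -Vale.Agent.P268.H288.mx (-u.ofLp) := by
    refine le_antisymm ?_ (le_mnV fun j => ?_)
    · rw [le_neg]
      refine Finset.sup'_le _ _ fun j _ => ?_
      have := mnV_le u j
      show -(u j) ≤ _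
      linarith
    · have : (-u.ofLp) j ≤ Vale.Agent.P268.H288.mx (-u.ofLp) :=
        Finset.le_sup' (-u.ofLp) (Finset.mem_univ j)
      have h3 : (-u.ofLp) j = -(u j) := rfl
      rw [h3] at this
      linarith
  rw [h1, h2]; ring

/-- The end of block B3 is the K-form. -/
theorem kF_eq_kform {δ d d' θ ε ρ M : ℝ} {G : (ι → ℕ) → ℝ} {K : σ → ι → ℕ} :
    kF K δ ρ M d ε 0 (fun a => cV δ d' θ G (K a)) = kform δ d d' θ ε ρ M G K := by
  funext x
  unfold kF kform kRe
  have h1 : (Finset.univ.sup' Finset.univ_nonempty fun k : σ =>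
      ρ * ‖x.1‖ - ‖x.2 - (0 : ℝ) • phiV (K k) x.1‖) = ρ * ‖x.1‖ - ‖x.2‖ := by
    simp only [zero_smul, sub_zero]
    exact Finset.sup'_const _ _
  rw [h1, frV_zero_eq, oscV_eq_osc]
  rfl

variable {K : σ → ι → ℕ} {C : ℝ} {G : (ι → ℕ) → ℝ} {δ ε θ d d' κ ε₁ M s₀ : ℝ}

/-- The constant of block B3. -/
noncomputable def CB3 (K : σ → ι → ℕ) : ℝ :=
  C4 K + 16 * (Fintype.card ι : ℝ) ^ 2 + 32 * Real.sqrt (Fintype.card ι) + 1

theorem C4_nonneg (K : σ → ι → ℕ) : 0 ≤ C4 K := by
  unfold C4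
  have := K372.kS_sum_nonneg K
  positivity

/-- **Block B3** after stage P1. -/
theorem b3_chain (h : ScalesB3 K C G δ ε θ d d' κ ε₁ M s₀) (hC : CB3 K ≤ C)
    (hK : Function.Injective K) {M' : ℝ} (hM' : 0 < M') :
    VEq (kF K δ (2 * ε₁) M 2 (2 * ε₁) 1 fun k => phiV (K k))
      (kform δ (2 * d) d' θ (2 * ε₁) (2 * ε) M' G K) := by
  have h4 := C4_nonneg K
  have hs : 0 ≤ Real.sqrt (Fintype.card ι) := Real.sqrt_nonneg _
  have hn : 0 ≤ (Fintype.card ι : ℝ) ^ 2 := sq_nonneg _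
  unfold CB3 at hC
  have hM : 0 < M := by linarith [h.hM, h.hC]
  have a2 := veq_S1_scales h (by linarith)
  have a3 := stage2 h (by rw [← pow_two]; linarith) (by linarith) hK
  have a4 := H291.stageS3 h (by linarith)
  have a5 := h.stage4 (by linarith)
  have a6 := veq_kF_M (K := K) (δ := δ) (ρ := 2 * ε) (s := 2 * d) (ε := 2 * ε₁) (a := 0)
    (c := fun a => cV δ d' θ G (K a)) hM hM'
  have a7 := (((a2.trans a3).trans a4).trans a5).trans a6
  rwa [kF_eq_kform] at a7

end

theorem tendsto_half : Tendsto (fun x : ℝ => x / 2) (𝓝[>] 0) (𝓝[>] 0) := by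
  refine tendsto_nhdsWithin_iff.mpr ⟨?_, ?_⟩
  · have h1 : Tendsto (fun x : ℝ => x / 2) (𝓝 0) (𝓝 (0 / 2)) := by
      exact (continuous_id.div_const 2).tendsto 0
    rw [zero_div] at h1
    exact h1.mono_left nhdsWithin_le_nhds
  · filter_upwards [self_mem_nhdsWithin] with x hx
    exact half_pos (mem_Ioi.mp hx)

/-- **Block B3**. -/
theorem kFormB3 : KFormB3 := by
  intro k σ _ _ K hK G hG
  have hcard : (Fintype.card (Fin (k + 4)) : ℝ) = k + 4 := by simp
  have hk : (0 : ℝ) ≤ k := Nat.cast_nonneg k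
  have hδ0 : 0 < dl k := by unfold dl; positivity
  have hδ : (Fintype.card (Fin (k + 4)) : ℝ) * dl k ^ 2 < 1 := by
    rw [hcard]
    unfold dl
    rw [div_pow, one_pow, mul_one_div, div_lt_one (by positivity)]
    nlinarith
  have hC1 : 1 ≤ CB3 K := by
    have h4 := C4_nonneg K
    have hs : 0 ≤ Real.sqrt (Fintype.card (Fin (k + 4))) := Real.sqrt_nonneg _
    unfold CB3
    have : 0 ≤ 16 * (Fintype.card (Fin (k + 4)) : ℝ) ^ 2 := by positivity
    linarith
  have hev := eventually_scalesB3 (K := K) hG.1 hG.2.1 hG.2.2.1 hG.2.2.2 hC1 hδ0 hδ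
  have hP := eventually_veq_fs_kF K hδ0 hδ
  filter_upwards [tendsto_half.eventually hev] with ρ hρ
  filter_upwards [tendsto_half.eventually hρ] with d hd
  filter_upwards [hd] with d' hd'
  filter_upwards [hd'] with θ hθ
  filter_upwards [tendsto_half.eventually hθ, tendsto_half.eventually hP] with ε hε hPε
  obtain ⟨κ, M, s₀, hsc⟩ := hε
  filter_upwards [eventually_gt_atTop 0] with M' hM'
  filter_upwards [hPε] with ε' hε'
  have h1 := b3_chain hsc le_rfl hK hM'
  have e1 : 2 * (ρ / 2) = ρ := by ring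
  have e2 : 2 * (d / 2) = d := by ring
  have e3 : 2 * (ε / 2) = ε := by ring
  have h2 := hε' M 2 (by linarith [hsc.hM, hsc.hC])
  rw [e3] at h2
  rw [e1, e2, e3] at h1
  exact h2.trans h1

end Vale.Agent.P268.T
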