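import Vale.Agent.P268.T.N625.Real

/-!
# P268, topological half, block B3: regularity from two directions

`DP s t₀ x₀ D e r L K f`: near `(t₀, x₀)` the family of real functions `f` grows along `D` with slope
at least `r` (and at most `K`) and is `L`-Lipschitz along `e`.  This is closed under `max`, `min`,
`sup'`.  `IP s t₀ x₀ D e σ μ K β`: near `(t₀, x₀)` the function `β` grows along `e` with slope at
least `σ` and is `μ`-Lipschitz along `D`.  If `L μ < r σ` then `f + i β` is regular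
(`RegAt.of_dp`).
-/

set_option linter.unusedSectionVars false

namespace Vale.Agent.P268.T

open Set Filter Topology

variable {E : Type*} [NormedAddCommGroup E] [NormedSpace ℝ E]
  {T : Type*} [TopologicalSpace T]

/-- Parameter near `t₀` in `s`, point near `x₀`, small real number. -/
def FF (s : Set T) (t₀ : T) (x₀ : E) : Filter ((T × E) × ℝ) := (𝓝[s] t₀ ×ˢ 𝓝 x₀) ×ˢ 𝓝 (0 : ℝ)

section FF

variable {s : Set T} {t₀ : T} {x₀ : E}

theorem FF.tendsto_base : Tendsto (fun p : (T × E) × ℝ => p.1) (FF s t₀ x₀) (𝓝[s] t₀ ×ˢ 𝓝 x₀) :=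
  tendsto_fst

theorem FF.tendsto_real : Tendsto (fun p : (T × E) × ℝ => p.2) (FF s t₀ x₀) (𝓝 0) :=
  tendsto_snd

theorem FF.tendsto_step (D : E) :
    Tendsto (fun p : (T × E) × ℝ => (p.1.1, p.1.2 + p.2 • D)) (FF s t₀ x₀)
      (𝓝[s] t₀ ×ˢ 𝓝 x₀) := by
  refine Tendsto.prodMk (tendsto_fst.comp FF.tendsto_base) ?_
  have h1 : Tendsto (fun p : (T × E) × ℝ => p.1.2) (FF s t₀ x₀) (𝓝 x₀) :=
    tendsto_snd.comp FF.tendsto_base
  have h2 : Tendsto (fun p : (T × E) × ℝ => p.2 • D) (FF s t₀ x₀) (𝓝 ((0 : ℝ) • D)) :=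
    FF.tendsto_real.smul_const D
  have := h1.add h2
  rwa [zero_smul, add_zero] at this

/-- A property holding near `(t₀, x₀)` holds before and after a small step. -/
theorem FF.ev {Q : T × E → Prop} (h : ∀ᶠ p in 𝓝[s] t₀ ×ˢ 𝓝 x₀, Q p) (D : E) :
    ∀ᶠ p in FF s t₀ x₀, Q p.1 ∧ Q (p.1.1, p.1.2 + p.2 • D) :=
  (FF.tendsto_base.eventually h).and ((FF.tendsto_step D).eventually h)

end FF

/-- Growth along `D`, Lipschitz along `e`. -/
def DP (s : Set T) (t₀ : T) (x₀ D e : E) (r L K : ℝ) (f : T → E → ℝ) : Prop :=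
  ∀ᶠ p in FF s t₀ x₀, (0 ≤ p.2 → r * p.2 ≤ f p.1.1 (p.1.2 + p.2 • D) - f p.1.1 p.1.2 ∧
    f p.1.1 (p.1.2 + p.2 • D) - f p.1.1 p.1.2 ≤ K * p.2) ∧
    |f p.1.1 (p.1.2 + p.2 • e) - f p.1.1 p.1.2| ≤ L * |p.2|

/-- Growth along `e`, Lipschitz along `D`. -/
def IP (s : Set T) (t₀ : T) (x₀ D e : E) (σ μ K : ℝ) (β : T → E → ℝ) : Prop :=
  ∀ᶠ p in FF s t₀ x₀, (0 ≤ p.2 → σ * p.2 ≤ β p.1.1 (p.1.2 + p.2 • e) - β p.1.1 p.1.2 ∧
    β p.1.1 (p.1.2 + p.2 • e) - β p.1.1 p.1.2 ≤ K * p.2) ∧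
    (0 ≤ p.2 → |β p.1.1 (p.1.2 + p.2 • D) - β p.1.1 p.1.2| ≤ μ * p.2)

section DP

variable {s : Set T} {t₀ : T} {x₀ D e : E} {r L K : ℝ} {f g : T → E → ℝ}

theorem DP.mono_const {r' L' K' : ℝ} (h : DP s t₀ x₀ D e r L K f) (hr : r' ≤ r) (hL : L ≤ L')
    (hK : K ≤ K') : DP s t₀ x₀ D e r' L' K' f := by
  filter_upwards [h] with p ⟨h1, h2⟩
  refine ⟨fun h0 => ⟨(mul_le_mul_of_nonneg_right hr h0).trans (h1 h0).1,
    (h1 h0).2.trans (mul_le_mul_of_nonneg_right hK h0)⟩,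
    h2.trans (mul_le_mul_of_nonneg_right hL (abs_nonneg _))⟩

theorem DP.max (hf : DP s t₀ x₀ D e r L K f) (hg : DP s t₀ x₀ D e r L K g) :
    DP s t₀ x₀ D e r L K (fun t x => max (f t x) (g t x)) := by
  filter_upwards [hf, hg] with p ⟨f1, f2⟩ ⟨g1, g2⟩
  refine ⟨fun h0 => ⟨?_, ?_⟩, ?_⟩
  · obtain ⟨a1, -⟩ := f1 h0
    obtain ⟨b1, -⟩ := g1 h0
    rcases max_choice (f p.1.1 p.1.2) (g p.1.1 p.1.2) with h | h <;> rw [h]
    · linarith [le_max_left (f p.1.1 (p.1.2 + p.2 • D)) (g p.1.1 (p.1.2 + p.2 • D))]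
    · linarith [le_max_right (f p.1.1 (p.1.2 + p.2 • D)) (g p.1.1 (p.1.2 + p.2 • D))]
  · obtain ⟨-, a2⟩ := f1 h0
    obtain ⟨-, b2⟩ := g1 h0
    rcases max_choice (f p.1.1 (p.1.2 + p.2 • D)) (g p.1.1 (p.1.2 + p.2 • D)) with h | h <;>
      rw [h]
    · linarith [le_max_left (f p.1.1 p.1.2) (g p.1.1 p.1.2)]
    · linarith [le_max_right (f p.1.1 p.1.2) (g p.1.1 p.1.2)]
  · exact (abs_max_sub_max_le_max _ _ _ _).trans (max_le f2 g2)

theorem DP.min (hf : DP s t₀ x₀ D e r L K f) (hg : DP s t₀ x₀ D e r L K g) :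
    DP s t₀ x₀ D e r L K (fun t x => min (f t x) (g t x)) := by
  filter_upwards [hf, hg] with p ⟨f1, f2⟩ ⟨g1, g2⟩
  refine ⟨fun h0 => ⟨?_, ?_⟩, ?_⟩
  · obtain ⟨a1, -⟩ := f1 h0
    obtain ⟨b1, -⟩ := g1 h0
    rcases min_choice (f p.1.1 (p.1.2 + p.2 • D)) (g p.1.1 (p.1.2 + p.2 • D)) with h | h <;>
      rw [h]
    · linarith [min_le_left (f p.1.1 p.1.2) (g p.1.1 p.1.2)]
    · linarith [min_le_right (f p.1.1 p.1.2) (g p.1.1 p.1.2)]
  · obtain ⟨-, a2⟩ := f1 h0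
    obtain ⟨-, b2⟩ := g1 h0
    rcases min_choice (f p.1.1 p.1.2) (g p.1.1 p.1.2) with h | h <;> rw [h]
    · linarith [min_le_left (f p.1.1 (p.1.2 + p.2 • D)) (g p.1.1 (p.1.2 + p.2 • D))]
    · linarith [min_le_right (f p.1.1 (p.1.2 + p.2 • D)) (g p.1.1 (p.1.2 + p.2 • D))]
  · exact (abs_min_sub_min_le_max _ _ _ _).trans (max_le f2 g2)

/-- Only the germ matters. -/
theorem DP.congr (hf : DP s t₀ x₀ D e r L K f)
    (h : ∀ᶠ p in 𝓝[s] t₀ ×ˢ 𝓝 x₀, f p.1 p.2 = g p.1 p.2) : DP s t₀ x₀ D e r L K g := by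
  filter_upwards [hf, FF.ev h D, FF.ev h e] with p h1 ⟨h2, h3⟩ ⟨_, h4⟩
  rw [← h2, ← h3, ← h4]
  exact h1

theorem DP.max_of_lt (h : ∀ᶠ p in 𝓝[s] t₀ ×ˢ 𝓝 x₀, f p.1 p.2 ≤ g p.1 p.2)
    (hg : DP s t₀ x₀ D e r L K g) : DP s t₀ x₀ D e r L K (fun t x => Max.max (f t x) (g t x)) :=
  hg.congr (h.mono fun _ hp => (max_eq_right hp).symm)

theorem DP.min_of_lt (h : ∀ᶠ p in 𝓝[s] t₀ ×ˢ 𝓝 x₀, g p.1 p.2 ≤ f p.1 p.2)
    (hg : DP s t₀ x₀ D e r L K g) : DP s t₀ x₀ D e r L K (fun t x => Min.min (f t x) (g t x)) :=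
  hg.congr (h.mono fun _ hp => (min_eq_right hp).symm)

/-- Supremum over a finite family: it is enough that near `(t₀, x₀)` each member is either good
or strictly below some other member. -/
theorem DP.sup' {ι : Type*} [Fintype ι] [Nonempty ι] {F : T → ι → E → ℝ}
    (h : ∀ i, DP s t₀ x₀ D e r L K (fun t x => F t i x) ∨
      ∃ j, ∀ᶠ p in 𝓝[s] t₀ ×ˢ 𝓝 x₀, F p.1 i p.2 < F p.1 j p.2) :
    DP s t₀ x₀ D e r L K (fun t x => Finset.univ.sup' Finset.univ_nonempty (fun i => F t i x)) := by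
  classical
  have h1 : ∀ i, ∀ᶠ p in FF s t₀ x₀,
      ((0 ≤ p.2 → r * p.2 ≤ F p.1.1 i (p.1.2 + p.2 • D) - F p.1.1 i p.1.2 ∧
        F p.1.1 i (p.1.2 + p.2 • D) - F p.1.1 i p.1.2 ≤ K * p.2) ∧
        |F p.1.1 i (p.1.2 + p.2 • e) - F p.1.1 i p.1.2| ≤ L * |p.2|) ∨
      ∃ j, F p.1.1 i p.1.2 < F p.1.1 j p.1.2 ∧
        F p.1.1 i (p.1.2 + p.2 • D) < F p.1.1 j (p.1.2 + p.2 • D) ∧
        F p.1.1 i (p.1.2 + p.2 • e) < F p.1.1 j (p.1.2 + p.2 • e) := by
    intro i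
    rcases h i with h | ⟨j, hj⟩
    · exact h.mono fun p hp => Or.inl hp
    · filter_upwards [FF.ev hj D, FF.ev hj e] with p ⟨a1, a2⟩ ⟨_, a3⟩
      exact Or.inr ⟨j, a1, a2, a3⟩
  have h2 : ∀ᶠ p in FF s t₀ x₀, ∀ i,
      ((0 ≤ p.2 → r * p.2 ≤ F p.1.1 i (p.1.2 + p.2 • D) - F p.1.1 i p.1.2 ∧
        F p.1.1 i (p.1.2 + p.2 • D) - F p.1.1 i p.1.2 ≤ K * p.2) ∧
        |F p.1.1 i (p.1.2 + p.2 • e) - F p.1.1 i p.1.2| ≤ L * |p.2|) ∨
      ∃ j, F p.1.1 i p.1.2 < F p.1.1 j p.1.2 ∧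
        F p.1.1 i (p.1.2 + p.2 • D) < F p.1.1 j (p.1.2 + p.2 • D) ∧
        F p.1.1 i (p.1.2 + p.2 • e) < F p.1.1 j (p.1.2 + p.2 • e) :=
    eventually_all.mpr h1
  filter_upwards [h2] with p hp
  -- the maximal members
  have key : ∀ y : E, ∃ i, Finset.univ.sup' Finset.univ_nonempty (fun i => F p.1.1 i y) =
      F p.1.1 i y := fun y => by
    obtain ⟨i, -, hi⟩ := Finset.exists_mem_eq_sup' (Finset.univ_nonempty (α := ι))
      (fun i => F p.1.1 i y)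
    exact ⟨i, hi⟩
  have le : ∀ (y : E) (i : ι), F p.1.1 i y ≤ Finset.univ.sup' Finset.univ_nonempty
      (fun i => F p.1.1 i y) := fun y i => Finset.le_sup' (fun i => F p.1.1 i y) (Finset.mem_univ i)
  obtain ⟨i0, hi0⟩ := key p.1.2
  obtain ⟨i1, hi1⟩ := key (p.1.2 + p.2 • D)
  obtain ⟨i2, hi2⟩ := key (p.1.2 + p.2 • e)
  have g0 := (hp i0).resolve_right (by
    rintro ⟨j, h, -, -⟩
    have := le p.1.2 j
    rw [hi0] at this
    linarith)
  have g1 := (hp i1).resolve_right (by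
    rintro ⟨j, -, h, -⟩
    have := le (p.1.2 + p.2 • D) j
    rw [hi1] at this
    linarith)
  have g2 := (hp i2).resolve_right (by
    rintro ⟨j, -, -, h⟩
    have := le (p.1.2 + p.2 • e) j
    rw [hi2] at this
    linarith)
  refine ⟨fun h0 => ⟨?_, ?_⟩, ?_⟩
  · have := le (p.1.2 + p.2 • D) i0
    rw [hi0]
    linarith [(g0.1 h0).1]
  · have := le p.1.2 i1
    rw [hi1]
    linarith [(g1.1 h0).2]
  · have a1 := le (p.1.2 + p.2 • e) i0
    have a2 := le p.1.2 i2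
    have a3 := abs_le.mp g0.2
    have a4 := abs_le.mp g2.2
    rw [abs_le]
    constructor
    · rw [hi0]
      linarith [a3.1]
    · rw [hi2]
      linarith [a4.2]

end DP

section Reg

variable {s : Set T} {t₀ : T} {x₀ D e : E}

/-- Choice of the relative size of the two directions. -/
theorem exists_scale {r σ L μ : ℝ} (hr : 0 < r) (hσ : 0 < σ) (hL : 0 ≤ L) (hμ : 0 ≤ μ)
    (h : L * μ < r * σ) : ∃ m κ : ℝ, 0 < m ∧ 0 < κ ∧ ∀ a b : ℝ,
      κ * (a ^ 2 + b ^ 2) ≤ m * r * a ^ 2 + σ * b ^ 2 - (L + m * μ) * (|a| * |b|) := by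
  -- enlarge `L` and `μ`
  obtain ⟨L', μ', hL', hμ', hLL, hμμ, hlt⟩ : ∃ L' μ' : ℝ, 0 < L' ∧ 0 < μ' ∧ L ≤ L' ∧ μ ≤ μ' ∧
      L' * μ' < r * σ := by
    have hc : Continuous fun t : ℝ => (L + t) * (μ + t) := by fun_prop
    have h0 : ∀ᶠ t in 𝓝 (0 : ℝ), (L + t) * (μ + t) < r * σ := by
      refine hc.continuousAt.eventually (gt_mem_nhds ?_)
      simpa using h
    obtain ⟨t, ht, ht0⟩ := ((h0.filter_mono nhdsWithin_le_nhds).and
      (self_mem_nhdsWithin (a := (0 : ℝ)) (s := Ioi 0))).exists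
    have ht0 : 0 < t := ht0
    exact ⟨L + t, μ + t, by linarith, by linarith, by linarith, by linarith, ht⟩
  set m : ℝ := L' / μ' with hm
  have hm0 : 0 < m := by positivity
  have hmμ : m * μ' = L' := by rw [hm]; field_simp
  set R : ℝ := m * r with hR
  have hR0 : 0 < R := by positivity
  have hq : L' ^ 2 < R * σ := by
    have : L' ^ 2 = m * (L' * μ') := by rw [← hmμ]; ring
    rw [this, hR, mul_assoc]
    exact mul_lt_mul_of_pos_left hlt hm0
  -- discriminant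
  obtain ⟨κ, hκ0, hκR, hκσ, hκ⟩ : ∃ κ : ℝ, 0 < κ ∧ κ < R ∧ κ < σ ∧
      L' ^ 2 ≤ (R - κ) * (σ - κ) := by
    have hc : Continuous fun t : ℝ => (R - t) * (σ - t) := by fun_prop
    have h0 : ∀ᶠ t in 𝓝 (0 : ℝ), L' ^ 2 < (R - t) * (σ - t) := by
      refine hc.continuousAt.eventually (lt_mem_nhds ?_)
      simpa using hq
    have h1 : ∀ᶠ t in 𝓝 (0 : ℝ), t < R := gt_mem_nhds hR0
    have h2 : ∀ᶠ t in 𝓝 (0 : ℝ), t < σ := gt_mem_nhds hσ
    obtain ⟨t, ⟨ht, ht1, ht2⟩, ht0⟩ := (((h0.and (h1.and h2)).filter_mono nhdsWithin_le_nhds).and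
      (self_mem_nhdsWithin (a := (0 : ℝ)) (s := Ioi 0))).exists
    exact ⟨t, ht0, ht1, ht2, ht.le⟩
  refine ⟨m, κ, hm0, hκ0, fun a b => ?_⟩
  have h1 : (L + m * μ) * (|a| * |b|) ≤ 2 * L' * (|a| * |b|) := by
    refine mul_le_mul_of_nonneg_right ?_ (by positivity)
    have : m * μ ≤ m * μ' := mul_le_mul_of_nonneg_left hμμ hm0.le
    linarith
  have h2 : 2 * L' * (|a| * |b|) ≤ (R - κ) * a ^ 2 + (σ - κ) * b ^ 2 := by
    have hRκ : 0 < R - κ := by linarith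
    have e1 : 0 ≤ ((R - κ) * |a| - L' * |b|) ^ 2 := sq_nonneg _
    have e2 : L' ^ 2 * |b| ^ 2 ≤ (R - κ) * (σ - κ) * |b| ^ 2 :=
      mul_le_mul_of_nonneg_right hκ (sq_nonneg _)
    have e3 : (R - κ) * (2 * L' * (|a| * |b|)) ≤
        (R - κ) * ((R - κ) * |a| ^ 2 + (σ - κ) * |b| ^ 2) := by nlinarith
    have e4 := le_of_mul_le_mul_left e3 hRκ
    rwa [sq_abs, sq_abs] at e4
  nlinarith

theorem dp_alg {m κ r σ L μ K K' a b n dr1 dr2 di1 di2 : ℝ} (hm : 0 ≤ m) (hL : 0 ≤ L)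
    (hμ : 0 ≤ μ) (_hn : 0 ≤ n) (hac : |a| ≤ n) (hbc : |b| ≤ n)
    (hq : κ * (a ^ 2 + b ^ 2) ≤ m * r * a ^ 2 + σ * b ^ 2 - (L + m * μ) * (|a| * |b|))
    (E1 : |dr1| ≤ L * |b|) (E2 : σ * b ^ 2 ≤ di1 * b) (E3 : |di1| ≤ |K'| * |b|)
    (D1 : r * m * a ^ 2 ≤ dr2 * a) (D2 : |dr2| ≤ |K| * m * |a|) (D3 : |di2| ≤ μ * m * |a|) :
    κ * (a ^ 2 + b ^ 2) ≤ (dr2 + dr1) * a + (di2 + di1) * b ∧
      |dr2 + dr1| + |di2 + di1| ≤ (|K| * m + L + |K'| + μ * m) * n := by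
  constructor
  · have h2 : -(L * |b| * |a|) ≤ dr1 * a := by
      have : |dr1 * a| ≤ L * |b| * |a| := by
        rw [abs_mul]; exact mul_le_mul_of_nonneg_right E1 (abs_nonneg _)
      exact (abs_le.mp this).1
    have h3 : -(μ * m * |a| * |b|) ≤ di2 * b := by
      have : |di2 * b| ≤ μ * m * |a| * |b| := by
        rw [abs_mul]; exact mul_le_mul_of_nonneg_right D3 (abs_nonneg _)
      exact (abs_le.mp this).1
    have h4 : (L + m * μ) * (|a| * |b|) = L * |b| * |a| + μ * m * |a| * |b| := by ring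
    have h5 : m * r * a ^ 2 = r * m * a ^ 2 := by ring
    rw [h4, h5] at hq
    have h6 : (dr2 + dr1) * a + (di2 + di1) * b = dr2 * a + dr1 * a + (di2 * b + di1 * b) := by ring
    rw [h6]
    linarith
  · have h1 := abs_add_le dr2 dr1
    have h2 := abs_add_le di2 di1
    have h3 : |K| * m * |a| ≤ |K| * m * n := mul_le_mul_of_nonneg_left hac (by positivity)
    have h4 : μ * m * |a| ≤ μ * m * n := mul_le_mul_of_nonneg_left hac (by positivity)
    have h5 : L * |b| ≤ L * n := mul_le_mul_of_nonneg_left hbc hL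
    have h6 : |K'| * |b| ≤ |K'| * n := mul_le_mul_of_nonneg_left hbc (abs_nonneg _)
    calc _ ≤ |K| * m * n + L * n + (μ * m * n + |K'| * n) := by linarith
      _ = _ := by ring

/-- **Regularity from two directions.** -/
theorem RegAt.of_dp {F : T → E → ℂ} {r L K σ μ K' : ℝ}
    (hre : DP s t₀ x₀ D e r L K (fun t x => (F t x).re))
    (him : IP s t₀ x₀ D e σ μ K' (fun t x => (F t x).im))
    (hr : 0 < r) (hσ : 0 < σ) (hL : 0 ≤ L) (hμ : 0 ≤ μ) (h : L * μ < r * σ) :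
    RegAt s F t₀ x₀ := by
  obtain ⟨m, κ, hm, hκ, hq⟩ := exists_scale hr hσ hL hμ h
  -- extract a product neighbourhood
  obtain ⟨P, hP, Q, hQ, hPQ⟩ := eventually_prod_iff.mp (hre.and him)
  obtain ⟨PT, hPT, PE, hPE, hP'⟩ := eventually_prod_iff.mp hP
  obtain ⟨R, hR, hball⟩ := Metric.eventually_nhds_iff_ball.mp hPE
  obtain ⟨d, hd, hdb⟩ := Metric.eventually_nhds_iff_ball.mp hQ
  have hall : ∀ t, PT t → ∀ x, ‖x - x₀‖ < R → ∀ τ : ℝ, |τ| < d → _ := fun t ht x hx τ hτ =>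
    hPQ (hP' ht (hball x (by rwa [Metric.mem_ball, dist_eq_norm])))
      (hdb τ (by rwa [Metric.mem_ball, dist_zero_right, Real.norm_eq_abs]))
  let B : ℂ →L[ℝ] E := (m • Complex.reCLM).smulRight D + Complex.imCLM.smulRight e
  have hB : ∀ c, B c = (m * c.re) • D + c.im • e := fun c => by simp [B]
  -- the allowed size of the increments
  obtain ⟨δ, hδ0, hδ1, hδ2, hδ3⟩ : ∃ δ : ℝ, 0 < δ ∧ m * δ < d ∧ δ < d ∧
      δ * (m * ‖D‖ + ‖e‖) < R / 2 := by
    have hc : ∀ᶠ t in 𝓝 (0 : ℝ), m * t < d ∧ t < d ∧ t * (m * ‖D‖ + ‖e‖) < R / 2 := by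
      have c1 : Continuous fun t : ℝ => m * t := by fun_prop
      have c2 : Continuous fun t : ℝ => t * (m * ‖D‖ + ‖e‖) := by fun_prop
      refine (c1.continuousAt.eventually (gt_mem_nhds ?_)).and ((gt_mem_nhds hd).and
        (c2.continuousAt.eventually (gt_mem_nhds ?_)))
      · simpa using hd
      · simpa using hR
    obtain ⟨t, ht, ht0⟩ := ((hc.filter_mono nhdsWithin_le_nhds).and
      (self_mem_nhdsWithin (a := (0 : ℝ)) (s := Ioi 0))).exists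
    exact ⟨t, ht0, ht.1, ht.2.1, ht.2.2⟩
  refine RegAt.of_monotone_small (κ := κ) (Λ := |K| * m + L + |K'| + μ * m) (δ := δ) hκ hδ0 B
    ⟨Metric.ball x₀ (R / 2), Metric.ball_mem_nhds _ (by linarith), ?_⟩
  filter_upwards [hPT] with t ht x hx c hc
  have hx : ‖x - x₀‖ < R / 2 := by rwa [Metric.mem_ball, dist_eq_norm] at hx
  set a := c.re with ha
  set b := c.im with hb
  have haδ : |a| ≤ δ := (Complex.abs_re_le_norm c).trans hc
  have hbδ : |b| ≤ δ := (Complex.abs_im_le_norm c).trans hc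
  have hac : |a| ≤ ‖c‖ := Complex.abs_re_le_norm c
  have hbc : |b| ≤ ‖c‖ := Complex.abs_im_le_norm c
  have hmem : ∀ α β : ℝ, |α| ≤ m * δ → |β| ≤ δ → ‖x + α • D + β • e - x₀‖ < R := by
    intro α β hα hβ
    have e1 : x + α • D + β • e - x₀ = (x - x₀) + (α • D + β • e) := by abel
    rw [e1]
    have e2 : ‖α • D + β • e‖ ≤ δ * (m * ‖D‖ + ‖e‖) := by
      refine (norm_add_le _ _).trans ?_
      rw [norm_smul, norm_smul, Real.norm_eq_abs, Real.norm_eq_abs]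
      calc |α| * ‖D‖ + |β| * ‖e‖ ≤ (m * δ) * ‖D‖ + δ * ‖e‖ := by gcongr
        _ = _ := by ring
    exact (norm_add_le _ _).trans_lt (by linarith)
  have hmd : |m * a| < d := by
    rw [abs_mul, abs_of_pos hm]
    exact (mul_le_mul_of_nonneg_left haδ hm.le).trans_lt hδ1
  have hmd' : |m * a| ≤ m * δ := by
    rw [abs_mul, abs_of_pos hm]
    exact mul_le_mul_of_nonneg_left haδ hm.le
  have hbd : |b| < d := hbδ.trans_lt hδ2
  -- `x → x1 = x + b e → x2 = x1 + m a D`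
  set x1 : E := x + b • e with hx1
  set x2 : E := x1 + (m * a) • D with hx2
  have hx0R : ‖x - x₀‖ < R := by linarith
  have hx1R : ‖x1 - x₀‖ < R := by
    have := hmem 0 b (by rw [abs_zero]; positivity) hbδ
    rwa [zero_smul, add_zero] at this
  have hx2R : ‖x2 - x₀‖ < R := by
    have := hmem (m * a) b hmd' hbδ
    have e1 : x + (m * a) • D + b • e = x2 := by rw [hx2, hx1]; abel
    rwa [e1] at this
  have hxB : x + B c = x2 := by rw [hB, hx2, hx1]; abel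
  have z0 := hall t ht x hx0R b hbd
  -- increments along `e`
  have E1 : |(F t x1).re - (F t x).re| ≤ L * |b| := z0.1.2
  have E2 : σ * b ^ 2 ≤ ((F t x1).im - (F t x).im) * b ∧
      |(F t x1).im - (F t x).im| ≤ |K'| * |b| := by
    rcases le_or_gt 0 b with hb0 | hb0
    · obtain ⟨h1, h2⟩ := z0.2.1 hb0
      have h1 : σ * b ≤ (F t x1).im - (F t x).im := h1
      have h2 : (F t x1).im - (F t x).im ≤ K' * b := h2
      have h3 : 0 ≤ σ * b := by positivity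
      constructor
      · nlinarith
      · rw [abs_of_nonneg (h3.trans h1), abs_of_nonneg hb0]
        exact h2.trans (mul_le_mul_of_nonneg_right (le_abs_self _) hb0)
    · have z1 := (hall t ht x1 hx1R (-b) (by rwa [abs_neg])).2.1 (by simp only; linarith)
      simp only at z1
      have e1 : x1 + (-b) • e = x := by rw [hx1, neg_smul]; abel
      rw [e1] at z1
      obtain ⟨h1, h2⟩ := z1
      have h3 : 0 ≤ σ * -b := by
        have : 0 < -b := by linarith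
        positivity
      constructor
      · nlinarith
      · rw [abs_sub_comm, abs_of_nonneg (h3.trans h1), abs_of_neg hb0]
        exact h2.trans (mul_le_mul_of_nonneg_right (le_abs_self _) (by linarith))
  -- increments along `D`
  have D1 : r * m * a ^ 2 ≤ ((F t x2).re - (F t x1).re) * a ∧
      |(F t x2).re - (F t x1).re| ≤ |K| * m * |a| ∧
      |(F t x2).im - (F t x1).im| ≤ μ * m * |a| := by
    rcases le_or_gt 0 a with ha0 | ha0
    · have z1 := hall t ht x1 hx1R (m * a) hmd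
      have hma : 0 ≤ m * a := by positivity
      obtain ⟨h1, h2⟩ := z1.1.1 hma
      have h3 := z1.2.2 hma
      simp only at h1 h2 h3
      rw [← hx2] at h1 h2 h3
      have h4 : 0 ≤ r * (m * a) := by positivity
      refine ⟨?_, ?_, ?_⟩
      · nlinarith
      · rw [abs_of_nonneg (h4.trans h1), abs_of_nonneg ha0, mul_assoc]
        exact h2.trans (mul_le_mul_of_nonneg_right (le_abs_self _) hma)
      · rw [abs_of_nonneg ha0, mul_assoc]
        exact h3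
    · have z1 := hall t ht x2 hx2R (-(m * a)) (by rwa [abs_neg])
      have hma : 0 ≤ -(m * a) := by
        have : 0 < m * -a := mul_pos hm (by linarith)
        linarith
      obtain ⟨h1, h2⟩ := z1.1.1 hma
      have h3 := z1.2.2 hma
      simp only at h1 h2 h3
      have e1 : x2 + (-(m * a)) • D = x1 := by rw [hx2, neg_smul]; abel
      rw [e1] at h1 h2 h3
      have h4 : 0 ≤ r * -(m * a) := by positivity
      refine ⟨?_, ?_, ?_⟩
      · nlinarith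
      · rw [abs_sub_comm, abs_of_nonneg (h4.trans h1), abs_of_neg ha0]
        calc _ ≤ K * -(m * a) := h2
          _ ≤ |K| * -(m * a) := mul_le_mul_of_nonneg_right (le_abs_self _) hma
          _ = _ := by ring
      · rw [abs_sub_comm, abs_of_neg ha0]
        calc _ ≤ μ * -(m * a) := h3
          _ = _ := by ring
  rw [hxB]
  have hre' : (F t x2 - F t x).re = ((F t x2).re - (F t x1).re) + ((F t x1).re - (F t x).re) := by
    rw [Complex.sub_re]; ring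
  have him' : (F t x2 - F t x).im = ((F t x2).im - (F t x1).im) + ((F t x1).im - (F t x).im) := by
    rw [Complex.sub_im]; ring
  have hcn : ‖c‖ ^ 2 = a ^ 2 + b ^ 2 := by
    rw [Complex.sq_norm, Complex.normSq_apply]; ring
  have hn : ‖F t x2 - F t x‖ ≤ |(F t x2 - F t x).re| + |(F t x2 - F t x).im| :=
    Complex.norm_le_abs_re_add_abs_im _
  rw [inner_complex, hcn, ← ha, ← hb]
  rw [hre', him'] at hn ⊢
  have h0 := norm_nonneg c
  have hqab := hq a b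
  generalize (F t x2).re - (F t x1).re = dr2 at *
  generalize (F t x1).re - (F t x).re = dr1 at *
  generalize (F t x2).im - (F t x1).im = di2 at *
  generalize (F t x1).im - (F t x).im = di1 at *
  obtain ⟨h1, h2⟩ := dp_alg hm.le hL hμ h0 hac hbc hqab E1 E2.1 E2.2 D1.1 D1.2.1 D1.2.2
  exact ⟨h1, hn.trans h2⟩

end Reg

end Vale.Agent.P268.T
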